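import Vale.Agent.P354CB.Ez

/-!
The first derivative of a local isometry stays bounded at a boundary point.
-/

open scoped ContDiff
open Set Filter Topology Metric

namespace Vale.Agent.P354CB82

open Vale.Agent.P354n Vale.Agent.P354CB
open Vale.Agent.P354XE (Tw Lor)
open Vale.Agent.P354XJ
open Vale.Agent.P354YC (Is iso_iff fut_map)
open Vale.Agent.P354RC (at_df)

theorem ode {E : Type} [NormedAddCommGroup E] [NormedSpace ℝ E] {P P' : ℝ → E} {θ θ' : ℝ → ℝ}
    {A : ℝ} (hP : ∀ t ∈ Icc (0 : ℝ) 1, HasDerivAt P (P' t) t)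
    (hθ : ∀ t ∈ Icc (0 : ℝ) 1, HasDerivAt θ (θ' t) t)
    (b : ∀ t ∈ Icc (0 : ℝ) 1, ‖P' t‖ ≤ (A + θ' t) * ‖P t‖) :
    ‖P 1‖ ≤ (‖P 0‖ + 1) * Real.exp (A + 1 + (θ 1 - θ 0)) := by
  have d : ∀ t ∈ Icc (0 : ℝ) 1,
      HasDerivAt (fun t => (‖P 0‖ + 1) * Real.exp ((A + 1) * t + (θ t - θ 0)))
        ((‖P 0‖ + 1) * (Real.exp ((A + 1) * t + (θ t - θ 0)) * ((A + 1) * 1 + θ' t))) t :=
    fun t ht => ((((hasDerivAt_id t).const_mul (A + 1)).add ((hθ t ht).sub_const _)).exp).const_mul _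
  have := image_norm_le_of_norm_deriv_right_lt_deriv_boundary' (a := 0) (b := 1)
    (fun t ht => (hP t ht).continuousAt.continuousWithinAt)
    (fun t ht => (hP t (Ico_subset_Icc_self ht)).hasDerivWithinAt) (by simp)
    (fun t ht => (d t ht).continuousAt.continuousWithinAt)
    (fun t ht => (d t (Ico_subset_Icc_self ht)).hasDerivWithinAt)
    (fun t ht e => (b t (Ico_subset_Icc_self ht)).trans_lt (by
      rw [e]
      have : 0 < (‖P 0‖ + 1) * Real.exp ((A + 1) * t + (θ t - θ 0)) := by positivity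
      nlinarith)) (right_mem_Icc.2 zero_le_one)
  simpa using this

/-- The bound along a timelike segment. -/
theorem seg (K3 : LK3) {g g' : Tw} {D D' : Set R4} {Xf Xf' F : R4 → R4} (h : Lor g D Xf)
    (h' : Lor g' D' Xf') {K K' : Set R4} (hK : IsCompact K) (hK' : IsCompact K') (s : K ⊆ D)
    (s' : K' ⊆ D') {θ : R4 →L[ℝ] ℝ} {c : ℝ} (c0 : 0 < c)
    (cn : ∀ z ∈ K', ∀ a, g' z a a ≤ 0 → g' z a (Xf' z) ≤ 0 → c * ‖a‖ ≤ θ a) (v : R4) :
    ∃ C, 0 ≤ C ∧ ∀ w, (∀ t ∈ Icc (0 : ℝ) 1, w + t • v ∈ K ∧ g (w + t • v) v v < 0 ∧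
      g (w + t • v) v (Xf (w + t • v)) < 0 ∧
      ∀ᶠ z in 𝓝 (w + t • v), F z ∈ K' ∧ Is g Xf g' Xf' F z) →
      ‖fderiv ℝ F (w + v)‖ ≤ (‖fderiv ℝ F w‖ + 1) * C := by
  obtain ⟨Γ, Γs, hΓ⟩ := K3.gam h
  obtain ⟨Γ', Γs', hΓ'⟩ := K3.gam h'
  obtain ⟨Λ, hΛ⟩ := hK.exists_bound_of_continuousOn (f := Γ) (Γs.continuousOn.mono s)
  obtain ⟨Λ', hΛ'⟩ := hK'.exists_bound_of_continuousOn (f := Γ') (Γs'.continuousOn.mono s')
  obtain ⟨R, hR⟩ := hK'.exists_bound_of_continuousOn (θ.continuous.continuousOn (s := K'))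
  refine ⟨Real.exp (Λ * ‖v‖ + 1 + 2 * (|Λ'| / c * R)), by positivity, fun w hw => ?_⟩
  have γ : ∀ t : ℝ, HasDerivAt (fun t : ℝ => w + t • v) v t := fun t => by
    simpa using ((hasDerivAt_id t).smul_const v).const_add w
  have k0 : 0 ≤ |Λ'| / c := by positivity
  have := ode (P := fun t => fderiv ℝ F (w + t • v))
    (P' := fun t => fderiv ℝ (fderiv ℝ F) (w + t • v) v) (A := Λ * ‖v‖)
    (θ := fun t => |Λ'| / c * θ (F (w + t • v)))
    (θ' := fun t => |Λ'| / c * θ (fderiv ℝ F (w + t • v) v))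
    (fun t ht => (at_df ((hw t ht).2.2.2.self_of_nhds.2.1.fderiv_right (m := ∞)
      (by simp))).hasFDerivAt.comp_hasDerivAt t (γ t))
    (fun t ht => (θ.hasFDerivAt.comp_hasDerivAt t
      ((at_df (hw t ht).2.2.2.self_of_nhds.2.1).hasFDerivAt.comp_hasDerivAt t (γ t))).const_mul _)
    fun t ht => ?_
  · simp only [one_smul, zero_smul, add_zero] at this
    refine this.trans (mul_le_mul_of_nonneg_left (Real.exp_le_exp.2 ?_) (by positivity))
    have a := hR _ (hw 0 (left_mem_Icc.2 zero_le_one)).2.2.2.self_of_nhds.1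
    have b := hR _ (hw 1 (right_mem_Icc.2 zero_le_one)).2.2.2.self_of_nhds.1
    simp only [one_smul, zero_smul, add_zero, Real.norm_eq_abs, abs_le] at a b
    nlinarith [mul_le_mul_of_nonneg_left a.1 k0, mul_le_mul_of_nonneg_left b.2 k0]
  · obtain ⟨m, t1, t2, ev⟩ := hw t ht
    obtain ⟨m', I⟩ := ev.self_of_nhds
    generalize w + t • v = y at *
    have j := K3.je h h' (G := fun y a b => Γ y a b) (G' := fun y a b => Γ' y a b)
      ((ev.and (h.isOpen.mem_nhds (s m))).mono fun z a => ⟨a.2, s' a.1.1, a.1.2⟩)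
      ((hΓ y (s m) _).2 fun _ _ => rfl) ((hΓ' _ (s' m') _).2 fun _ _ => rfl) v
    have q := cn _ m' (fderiv ℝ F y v) (I.2.1 v v ▸ t1.le)
      (fut_map h h' (s m) (s' m') I.2.1 I.2.2 t1 t2).le
    have q' : |Λ'| * ‖fderiv ℝ F y v‖ ≤ |Λ'| / c * θ (fderiv ℝ F y v) := by
      refine le_trans (le_of_eq ?_) (mul_le_mul_of_nonneg_left q k0)
      field_simp
    have L0 : 0 ≤ Λ := (norm_nonneg _).trans (hΛ y m)
    have z0 : 0 ≤ |Λ'| * ‖fderiv ℝ F y v‖ := by positivity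
    refine ContinuousLinearMap.opNorm_le_bound _
      (mul_nonneg (add_nonneg (by positivity) (z0.trans q')) (norm_nonneg _)) fun b => ?_
    rw [j b]
    set P := fderiv ℝ F y
    have a1 : ‖P (Γ y v b)‖ ≤ ‖P‖ * (Λ * ‖v‖ * ‖b‖) :=
      (P.le_opNorm _).trans (mul_le_mul_of_nonneg_left (((Γ y).le_opNorm₂ _ _).trans
        (by gcongr; exact hΛ y m)) (norm_nonneg _))
    have a2 : ‖Γ' (F y) (P v) (P b)‖ ≤ |Λ'| * ‖P v‖ * (‖P‖ * ‖b‖) :=
      ((Γ' (F y)).le_opNorm₂ _ _).trans (by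
        gcongr
        exacts [(hΛ' _ m').trans (le_abs_self _), P.le_opNorm _])
    have a3 := mul_le_mul_of_nonneg_right q' (mul_nonneg (norm_nonneg P) (norm_nonneg b))
    refine (norm_sub_le _ _).trans ?_
    nlinarith

theorem kj (B : B0) (O : OPEN) (nb : NBALL) (K3 : LK3) : KJ := by
  intro M N hM hN U ψ hU lm e' p r L c T n x hx V hV hψ dn e he
  set F := fun y => co e' (ψ (inv e y))
  have m0 := co_mem he
  obtain ⟨r0, L0, c0, n0⟩ := nb M hM e _ m0
  set x0 := co e x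
  set T0 := M.X e x0
  have x1 : inv e x0 = x := inv_co he
  obtain ⟨ρ, ρ0, hρ⟩ := nhds_basis_closedBall.eventually_iff.1
    (((inv_cont m0).eventually (x1 ▸ hV : V ∈ 𝓝 (inv e x0))).and (closedBall_mem_nhds x0 n0.r0))
  have hp : p ∈ tgt e' := n.sub (mem_closedBall_self n.r0.le)
  have lp := (hN.lor e').met.lin p hp T
  have t0 := n0.tl x0 (mem_closedBall_self n0.r0.le)
  have sm : ∀ᶠ s in 𝓝[>] (0 : ℝ), ‖s • T0‖ < ρ / 2 := nhdsWithin_le_nhds
    ((continuous_id.smul continuous_const).norm.continuousAt.eventually_lt continuousAt_const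
      (by simpa using ρ0))
  obtain ⟨s, ⟨s1, s2⟩, s0⟩ := (((B.ray hM m0 t0.1 t0.2).and sm).and self_mem_nhdsWithin).exists
  replace s0 : 0 < s := s0
  set v := s • T0 with hv
  have tv : ∀ (k : ℝ), 0 < k → ∀ z ∈ closedBall x0 ρ,
      M.g e z (k • T0) (k • T0) < 0 ∧ M.g e z (k • T0) (M.X e z) < 0 := fun k k0 z hz => by
    have mz := n0.sub (hρ hz).2
    have a := n0.tl z (hρ hz).2
    have b := (hM.lor e).met
    have l : ∀ u, M.g e z (k • T0) u = k * M.g e z T0 u := fun u => by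
      rw [b.symm z mz, (b.lin z mz u).map_smul, b.symm z mz, smul_eq_mul]
    rw [l, l, (b.lin z mz _).map_smul, smul_eq_mul]
    exact ⟨mul_neg_of_pos_of_neg k0 (mul_neg_of_pos_of_neg k0 a.1), mul_neg_of_pos_of_neg k0 a.2⟩
  have loc : ∀ z ∈ ball x0 ρ, inv e z ∈ U → ∀ᶠ y in 𝓝 z, F y ∈ closedBall p r ∧
      Is (M.g e) (M.X e) (N.g e') (N.X e') F y := fun z hz hu => by
    filter_upwards [isOpen_ball.mem_nhds hz, (inv_cont (n0.sub
      (hρ (ball_subset_closedBall hz)).2)).eventually (hU.mem_nhds hu)] with y a b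
    have a' := hρ (ball_subset_closedBall a)
    have my := n0.sub a'.2
    have q := hψ _ b a'.1
    have := (lm _ b).2 e e' (inv_mem my) q.1
    rw [co_inv my] at this
    exact ⟨q.2, iso_iff.1 this⟩
  have z0 : x0 - v ∈ ball x0 ρ := by
    rw [mem_ball_iff_norm, sub_sub_cancel_left, norm_neg]
    linarith
  have u0 : inv e (x0 - v) ∈ U := by
    obtain ⟨u, a, b⟩ := mem_closure_iff.1 hx _ (O M hM (inv e (x0 - v))) (x1 ▸ s1.1)
    exact dn u b _ (hρ (ball_subset_closedBall z0)).1 a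
  obtain ⟨C, C0, hC⟩ := seg (F := F) K3 (hM.lor e) (hN.lor e') (isCompact_closedBall x0 ρ)
    (isCompact_closedBall p r) (fun z a => n0.sub (hρ a).2) n.sub
    (θ := -LinearMap.toContinuousLinearMap (lp.mk' _)) n.c0 (fun z a u b1 b2 => by
      have := n.cone z a p (mem_closedBall_self n.r0.le) u b1 b2
      rwa [(hN.lor e').met.symm p hp] at this) v
  have ct : ContinuousAt (fun z => ‖fderiv ℝ F (z - v)‖) x0 :=
    (ContinuousAt.comp (g := fderiv ℝ F) (f := fun z => z - v)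
      ((loc _ z0 u0).self_of_nhds.2.1.fderiv_right (m := ∞) (by simp)).continuousAt
      (continuousAt_id.sub continuousAt_const)).norm
  refine ⟨(‖fderiv ℝ F (x0 - v)‖ + 1 + 1) * C, ?_⟩
  filter_upwards [ct.eventually_lt continuousAt_const (lt_add_one ‖fderiv ℝ F (x0 - v)‖),
    ball_mem_nhds x0 (half_pos ρ0)] with z a hz hu
  have bl : ∀ k ∈ Icc (0 : ℝ) 1, z - v + k • v ∈ ball x0 ρ := fun k hk => by
    rw [mem_ball_iff_norm] at hz ⊢
    rw [show z - v + k • v - x0 = z - x0 + (k - 1) • v by module]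
    refine (norm_add_le _ _).trans_lt ?_
    rw [norm_smul, Real.norm_eq_abs, abs_of_nonpos (by linarith [hk.2])]
    nlinarith [norm_nonneg v, hk.1]
  have := hC (z - v) fun t ht => by
    have b := ball_subset_closedBall (bl t ht)
    refine ⟨b, (tv s s0 _ b).1, (tv s s0 _ b).2, loc _ (bl t ht) ?_⟩
    rcases ht.2.eq_or_lt with rfl | t1
    · simpa using hu
    refine dn _ hu _ (hρ b).1 ⟨_, B.seg hM (e := e) (z := z - v + t • v) (v := ((1 - t) * s) • T0)
      fun k hk => ?_, by simp, ?_⟩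
    · have q : z - v + t • v + k • ((1 - t) * s) • T0 ∈ closedBall x0 ρ := by
        rw [show z - v + t • v + k • ((1 - t) * s) • T0 = z - v + (t + k * (1 - t)) • v by
          rw [hv]; module]
        exact ball_subset_closedBall (bl _ ⟨by nlinarith [ht.1, hk.1], by nlinarith [hk.2]⟩)
      exact ⟨n0.sub (hρ q).2, tv _ (mul_pos (sub_pos.2 t1) s0) _ q⟩
    · exact congrArg (inv e) (by rw [hv]; module)
  rw [sub_add_cancel] at this
  exact this.trans (by gcongr)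

theorem kj' (Z : L0) : KJ := kj Z.l1.b Z.l1.opn Z.l1.nb Z.k3

end Vale.Agent.P354CB82
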